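import Vale.Agent.P202.Mixed.Full

/-!
# P202: Lech's multiplicity conjecture
-/

noncomputable section

namespace Vale.Agent.Results.P202.Lech

open IsLocalRing Filter Vale.Agent.P202

universe u

/-- For every flat local homomorphism of Noetherian local rings, the multiplicity of the source is
at most that of the target. -/
theorem result (R : Type u) [CommRing R] [IsNoetherianRing R] [IsLocalRing R]
    (S : Type u) [CommRing S] [IsNoetherianRing S] [IsLocalRing S] [Algebra R S]
    [IsLocalHom (algebraMap R S)] [Module.Flat R S] :
    limsup (hsSeq R) atTop ≤ liminf (hsSeq S) atTop :=
  Mixed.lechStatement R S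

end Vale.Agent.Results.P202.Lech
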